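import Crest.Agent.X262.R139.R1
import Crest.Agent.X262.Qt.Defs
import Crest.Agent.X262.Geo.Dv
import Crest.Agent.X277.Res.LogD
import Crest.Agent.X277.Rgr.Rig

/-!
# Row 262, R1 + MODEL (helper39), part 4: the model

* `cen_of_lt`  : a valuation ring whose centre has height one in a factorial ring;
* `SmZ.cen`, `SmZ.prm`, `SmZ.exists_coords` : consequences of `SmZ`;
* `model_gen`  : any codimension, extra families of functions;
* `model2 : Model2Stmt` : codimension two; `remodel`.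
-/

set_option autoImplicit false

noncomputable section

namespace Crest.Agent.X262.R139

open Crest.Agent.X277 Crest.Agent.X277.Lef Crest.Agent.X277.BD Crest.Agent.X277.BD.Br
open Crest.Agent.X277.Pst (Prm Dvs loc)
open Crest.Agent.X277.AN.G1
open Crest.Agent.X277.Res.Out (Un Van Coords IsFr lo un_one)
open Crest.Agent.X277.Res.Out.Lb (Cen PE vt)
open Crest.Agent.X262.Qt (SmZ Dom)
open scoped KaehlerDifferential

section Gen

variable {k F : Type} [Field k] [Field F] [Algebra k F] {L : Subalgebra k F}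

theorem pe_of_prime [IsNoetherianRing L] (hfr : IsFr L) {π : L} (hp : Prime π) : PE L (π : F) := by
  have h0 : (π : F) ≠ 0 := fun h => hp.ne_zero (Subtype.ext h)
  refine ⟨π.2, h0, fun h1 => hp.not_isUnit ((Res.Out.un_iff_isUnit π).1 ⟨h0, π.2, ?_⟩), ?_, ?_, hfr⟩
  · rwa [one_div] at h1
  · intro a ha b hb hab
    have h1 : π ∣ (⟨a, ha⟩ : L) * ⟨b, hb⟩ := (Res.Out.Lb.dvd_iff h0).2 hab
    exact (hp.dvd_or_dvd h1).imp (Res.Out.Lb.dvd_iff h0).1 (Res.Out.Lb.dvd_iff h0).1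
  · intro a ha ha0
    obtain ⟨m, c, hc, hac⟩ := WfDvdMonoid.max_power_factor (a₀ := (⟨a, ha⟩ : L))
      (fun h1 => ha0 (congrArg Subtype.val h1)) hp.irreducible
    have h1 : a / π ^ m = c := by
      have h2 : a = π ^ m * c := congrArg Subtype.val hac
      rw [h2, mul_div_cancel_left₀ _ (pow_ne_zero _ h0)]
    refine ⟨m, by rw [h1]; exact c.2, fun h2 => hc ((Res.Out.Lb.dvd_iff h0).2 ?_)⟩
    rw [← h1]
    exact h2

/-- a valuation ring whose centre has height one -/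
theorem cen_of_lt [IsNoetherianRing L] [UniqueFactorizationMonoid L] (hfr : IsFr L)
    {W : ValuationSubring F} (hW : ∀ x ∈ L, x ∈ W) (h0 : W ≠ ⊤) {s : Set L} (hs : s.Finite)
    (h2 : s.ncard ≤ 2) [hJ : (Ideal.span s).IsPrime] (h : Res.Out.Lb.ctr W L < Ideal.span s) :
    Cen W L := by
  have hp := Res.Out.Lb.isPrime_ctr hW
  have h3 : Res.Out.Lb.ctr W L ≠ ⊥ := fun h3 => h0 (by
    refine eq_top_iff.2 fun x _ => ?_
    obtain ⟨a, ha, c, hc, hc0, rfl⟩ := hfr x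
    refine Res.Out.Lb.div_mem_of_le hc0 ?_
    rw [Res.Out.Lb.val_eq_one_of_notMem hW (a := ⟨c, hc⟩) fun h4 =>
      hc0 (Subtype.ext_iff.1 (Ideal.mem_bot.1 (h3 ▸ h4 : (⟨c, hc⟩ : L) ∈ ⊥)))]
    exact Res.Out.Lb.val_le (hW a ha))
  obtain ⟨π, h4, h5⟩ := hp.exists_mem_prime_of_ne_bot h3
  have h6 := (Ideal.span_singleton_prime h5.ne_zero).2 h5
  have h7 : Ideal.span {π} = Res.Out.Lb.ctr W L := by
    by_contra h7
    have h8 := Ideal.height_add_one_le_of_lt_of_isPrime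
      (lt_of_le_of_ne ((Ideal.span_singleton_le_iff_mem _).2 h4) h7)
    have h9 := Ideal.height_add_one_le_of_lt_of_isPrime (I := ⊥) (J := Ideal.span {π})
      (bot_lt_iff_ne_bot.2 fun h9 => h5.ne_zero (Ideal.span_singleton_eq_bot.1 h9))
    have h10 := Ideal.height_add_one_le_of_lt_of_isPrime h
    have h11 := Ideal.height_le_card_of_mem_minimalPrimes_span (p := Ideal.span s) hs
      (by rw [Ideal.minimalPrimes_eq_subsingleton_self]; rfl)
    have h12 : (0 : ℕ∞) + 1 + 1 + 1 ≤ (2 : ℕ) := by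
      refine le_trans ?_ (h11.trans (by exact_mod_cast h2))
      refine le_trans ?_ h10
      refine add_le_add_left (le_trans ?_ h8) 1
      exact add_le_add_left (le_trans (add_le_add_left zero_le 1) h9) 1
    norm_num at h12
  have hE := pe_of_prime hfr h5
  have h8 : vt hE = W := by
    refine hE.unif.eq_of_le (hE.cen.le_of_ctr hW ?_) hE.ne (hE.cen.le _ π.2) fun h8 => ?_
    · rw [← h7, Ideal.span_singleton_le_iff_mem]
      exact (Res.Out.Lb.mem_ctr hE.cen.le).2 hE.val_lt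
    · exact ((Res.Out.Lb.mem_ctr hW).1 h4).ne (Res.Out.Lb.val_eq_one hE.ne (hW _ π.2) h8)
  exact h8 ▸ hE.cen

end Gen

variable {F : Type} [Field F] [Algebra ℂ F] {P : PModel ℂ F} {A O : Subalgebra ℂ F} {n c : ℕ}

theorem card_eq (b : Module.Basis (Fin n) F Ω[F⁄ℂ]) {x : Pts P} {m : ℕ} {s : Fin m → F}
    (h : Coords (lp x).O s) : m = n := by
  have h1 := Module.finrank_eq_card_basis (Module.Basis.mk (Res.Log.linearIndependent_D h)
    (Res.Log.span_D (Res.Log.crd_of_coords h)).ge)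
  rw [Module.finrank_eq_card_basis b, Fintype.card_fin, Fintype.card_fin] at h1
  exact h1.symm

theorem exists_lp (j : Fin (P.N + 1)) (φ : P.A j →ₐ[ℂ] ℂ) :
    ∃ x : Pts P, (lp x).O = lo (P.A j) φ := by
  obtain ⟨x, hx, h⟩ := AN.G1.exists_pt j φ
  refine ⟨x, ?_⟩
  rw [Res.Log.lp_O hx]
  congr 1
  exact AlgHom.ext fun a => (ev_chr hx a).symm.trans (h a)

theorem exists_lo (x : Pts P) : ∃ (j : Fin (P.N + 1)) (φ : P.A j →ₐ[ℂ] ℂ),
    (lp x).O = lo (P.A j) φ := by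
  obtain ⟨j, hj⟩ := exists_pat x
  exact ⟨j, _, Res.Log.lp_O hj⟩

instance (x : Pts P) : IsLocalRing (lp x).O := by
  obtain ⟨j, φ, h⟩ := exists_lo x
  rw [h]
  infer_instance

theorem isLoc_lp {x : Pts P} {j : Fin (P.N + 1)} (hx : x ∈ pat P j) : IsLoc (P.A j) (lp x).O :=
  Res.Log.lp_O hx ▸ isLoc_lo _

namespace SmZ

variable (h : SmZ P O n c)
include h

theorem isLoc {x : Pts P} (hx : (lp x).O ≤ O) : IsLoc (lp x).O O := ⟨hx, h.loc x hx⟩

theorem isLocalRing : IsLocalRing O := by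
  obtain ⟨x, hx⟩ := h.ne
  obtain ⟨s, σ, -, -, h1⟩ := h.crd x hx
  refine IsLocalRing.of_nonunits_add fun a b ha hb => ?_
  rw [← Res.Out.van_iff_nonunit] at ha hb ⊢
  obtain ⟨e, h2, h3, h4⟩ := (isLoc h hx).exists_den (Set.toFinite {(a : F), (b : F)})
    (by rintro _ (rfl | rfl); exacts [a.2, b.2])
  have h5 := h4 a (by simp)
  have h6 := h4 b (by simp)
  have h7 := (h1 _ (add_mem h5 h6)).2 (add_mem ((h1 _ h5).1 (Van.mul_left h3.2.1 ha))
    ((h1 _ h6).1 (Van.mul_left h3.2.1 hb)))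
  have h8 := Van.mul_left h3.2.2 h7
  rwa [← mul_add, ← mul_assoc, inv_mul_cancel₀ h3.1, one_mul] at h8

theorem exists_chart : ∃ j, IsLoc (P.A j) O := by
  obtain ⟨x, hx⟩ := h.ne
  obtain ⟨j, hj⟩ := exists_pat x
  exact ⟨j, (isLoc_lp hj).trans (isLoc h hx)⟩

theorem exists_coords : ∃ t : Fin c → F, Coords O t := by
  classical
  obtain ⟨x, hx⟩ := h.ne
  obtain ⟨s, σ, h1, h2, h3⟩ := h.crd x hx
  obtain ⟨d, hd, hd'⟩ := h1.der
  refine ⟨s ∘ σ, fun l => (h3 _ (h1.mem _)).2 (Submodule.subset_span ⟨l, rfl⟩), fun a ha => ?_,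
    fun l => d (σ l), fun l a ha => ?_, fun l j => ?_⟩
  · obtain ⟨e, h4, h5, h6⟩ := h.loc x hx a ha.1
    obtain ⟨r, hr⟩ := (Submodule.mem_span_range_iff_exists_fun _).1
      ((h3 _ h6).1 (Van.mul_left h5.2.1 ha))
    refine ⟨fun l => e⁻¹ * r l, fun l => mul_mem h5.2.2 (hx (r l).2), ?_⟩
    simp only [mul_assoc, ← Finset.mul_sum]
    rw [eq_inv_mul_iff_mul_eq₀ h5.1, ← hr]
    rfl
  · have h4 : IsLoc (Algebra.adjoin ℂ ((lp x).O : Set F)) O := by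
      rw [Algebra.adjoin_eq]; exact isLoc h hx
    exact mem_one'.1 (h4.der_mem _ (fun y hy => mem_one'.2 (hx (hd _ y hy))) ha)
  · rw [Function.comp_apply, hd']
    simp only [h2.eq_iff]

/-- a localisation of `O` which is a divisorial valuation ring is a prime of the model -/
theorem prm {W : RZ ℂ F} (hW : Dvs W) (hc : Cen W.1 O) : Prm (oP P) W := by
  obtain ⟨x, hx⟩ := h.ne
  obtain ⟨y, hy⟩ := hW.res
  have h1 : ∀ a ∈ (lp x).O, a ∈ loc (oP P) W :=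
    fun a ha => Geo.lp_le_loc (fun f hf => hc.le f (hx hf)) ha
  have h2 : ∀ a ∈ O, a ∈ loc (oP P) W := fun a ha => by
    obtain ⟨e, h3, h4, h5⟩ := h.loc x hx a ha
    have h6 := mul_mem (Neg.inv_mem_loc (h1 e h3) (Res.Out.Lb.val_un hc.le h4)) (h1 _ h5)
    rwa [inv_mul_cancel_left₀ h4.1] at h6
  refine ⟨hW.ne_top, y, fun i => ?_, hy⟩
  obtain ⟨e, h3, h4, h5⟩ := hc.loc _ (hy.1 i)
  have h6 := mul_mem (Neg.inv_mem_loc (h2 e h3) h4) (h2 _ h5)
  rwa [inv_mul_cancel_left₀ (Qt.ne_of_val h4)] at h6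

/-- in codimension at most two a valuation ring over `O` dominates `O` or is a localisation -/
theorem cen (hc : c ≤ 2) {W : ValuationSubring F} (h0 : W ≠ ⊤) (hW : ∀ f ∈ O, f ∈ W)
    (hd : ¬ Dom W O) : Cen W O := by
  obtain ⟨x, hx⟩ := h.ne
  obtain ⟨s, σ, h1, -, h3⟩ := h.crd x hx
  have hL : ∀ f ∈ (lp x).O, f ∈ W := fun f hf => hW f (hx hf)
  have := isPrime_span h1 (Set.range σ)
  refine (cen_of_lt (frac_lp x) hL h0 (s := h1.el '' Set.range σ) (Set.toFinite _) ?_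
    (lt_of_le_of_ne (fun a ha => ?_) fun h4 => hd ⟨hW, fun f hf h5 => ?_⟩)).mono hx hW
  · rw [← Set.range_comp, ← Set.image_univ]
    exact (Set.ncard_image_le (Set.toFinite _)).trans (by simpa [Set.ncard_univ] using hc)
  · exact (mem_span_iff h1 σ a).2 ((h3 _ a.2).1 ⟨hx a.2, fun hu =>
      ((Res.Out.Lb.mem_ctr hL).1 ha).ne (Res.Out.Lb.val_un hW hu)⟩)
  · obtain ⟨e, h6, h7, h8⟩ := h.loc x hx f hf
    have h9 : Un O (e * f) := un_of_not_van (hx h8) fun hv => by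
      have h10 := (mem_span_iff h1 σ ⟨_, h8⟩).2 ((h3 _ h8).1 hv)
      rw [← h4, Res.Out.Lb.mem_ctr hL] at h10
      change W.valuation (e * f) < 1 at h10
      rw [map_mul, Res.Out.Lb.val_un hW h7, h5, one_mul] at h10
      exact lt_irrefl _ h10
    exact (Un.of_mul hf h7.2.1 (by rwa [mul_comm])).2.2

end SmZ

/-- the family `K` is generated by one member at every point -/
def GnK (P : PModel ℂ F) (K : Finset F) : Prop :=
  ∀ x : Pts P, ∃ g₀ ∈ K, ∀ g ∈ K, g / g₀ ∈ (lp x).O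

theorem GnK.gn {K : Finset F} (h : GnK P K) (h0 : ∀ g ∈ K, g ≠ 0) {ι : Type*} {s : ι → F} {u : F}
    (hu : u ≠ 0) (h1 : ∀ g ∈ K, ∃ i, s i / u = g) (h2 : ∀ i, s i / u ∈ K) : Cns.Gn P s := fun x => by
  obtain ⟨g, h3, h4⟩ := h x
  obtain ⟨i, rfl⟩ := h1 g h3
  refine ⟨i, fun h5 => h0 _ h3 (by rw [h5, zero_div]), fun l => ?_⟩
  have h5 := h4 _ (h2 l)
  rwa [div_div_div_cancel_right₀ hu] at h5

/-- a family inside `O` which makes `W` a prime divisor -/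
theorem exists_fam [Algebra.EssFiniteType ℂ F] (hfr : IsFr O) {W : RZ ℂ F} (hW : Dvs W) {f : F} (hf : f ∈ O) (hf' : f ∉ W.1) :
    ∃ K : Finset F, (1 : F) ∈ K ∧ (∀ g ∈ K, g ≠ 0 ∧ g ∈ O) ∧
      ∀ Q : PModel ℂ F, GnK Q K → Prm (oP Q) W := by
  classical
  obtain ⟨y, hy⟩ := hW.res
  have hy1 : ∀ i, W.v (y i) = 1 := fun i => by
    simpa using hy.2 (MvPolynomial.X i) (MvPolynomial.X_ne_zero i)
  choose a ha e he he0 hye using fun i => hfr (y i)
  have hb : ∏ i, e i ≠ 0 := Finset.prod_ne_zero_iff.2 fun i _ => he0 i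
  have hf0 : f ≠ 0 := fun h0 => hf' (h0 ▸ zero_mem _)
  obtain ⟨N, hN⟩ := Rgr.arch hW (W.v (∏ i, e i))⁻¹ (W.v f) (not_le.1 fun h => hf' (RZ.le_one_iff.1 h))
  set u := (∏ i, e i) * f ^ N with hu
  have hu0 : u ≠ 0 := mul_ne_zero hb (pow_ne_zero _ hf0)
  have hu1 : 1 ≤ W.v u := by
    rw [hu, map_mul, map_pow, ← inv_le_iff_one_le_mul₀' (RZ.pos hb)]
    exact hN
  have huO : u ∈ O := mul_mem (prod_mem fun i _ => he i) (pow_mem hf N)
  have hyO : ∀ i, y i * u ∈ O := fun i => by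
    rw [hu, ← Finset.mul_prod_erase _ _ (Finset.mem_univ i), hye, ← mul_assoc, ← mul_assoc,
      div_mul_cancel₀ _ (he0 i)]
    exact mul_mem (mul_mem (ha i) (prod_mem fun j _ => he j)) (pow_mem hf N)
  refine ⟨insert 1 (insert u (Finset.univ.image fun i => y i * u)), Finset.mem_insert_self _ _,
    fun g hg => ?_, fun Q hQ => ⟨hW.ne_top, y, fun i => ?_, hy⟩⟩
  · simp only [Finset.mem_insert, Finset.mem_image, Finset.mem_univ, true_and] at hg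
    rcases hg with rfl | rfl | ⟨i, rfl⟩
    exacts [⟨one_ne_zero, one_mem _⟩, ⟨hu0, huO⟩,
      ⟨mul_ne_zero (Qt.ne_of_val (hy1 i)) hu0, hyO i⟩]
  · obtain ⟨x, hx⟩ := Geo.exists_ov (P := Q) W
    obtain ⟨g, hg, h1⟩ := hQ x
    have h2 := h1 u (by simp)
    have h3 : g ≠ 0 ∧ W.v g ≤ W.v u := by
      simp only [Finset.mem_insert, Finset.mem_image, Finset.mem_univ, true_and] at hg
      rcases hg with rfl | rfl | ⟨i, rfl⟩
      exacts [⟨one_ne_zero, by rwa [map_one]⟩, ⟨hu0, le_rfl⟩,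
        ⟨mul_ne_zero (Qt.ne_of_val (hy1 i)) hu0, by rw [map_mul, hy1, one_mul]⟩]
    have h4 : W.v (u / g) = 1 := by
      rw [map_div₀, div_eq_one_iff_eq (RZ.pos h3.1).ne']
      exact le_antisymm ((RZ.le_iff h3.1).2 (hx _ h2)) h3.2
    have h5 := mul_mem (Neg.inv_mem_loc (Geo.lp_le_loc hx h2) h4)
      (Geo.lp_le_loc hx (h1 (y i * u) (Finset.mem_insert_of_mem (Finset.mem_insert_of_mem
        (Finset.mem_image.2 ⟨i, Finset.mem_univ _, rfl⟩)))))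
    have h6 := h3.1
    rwa [show (u / g)⁻¹ * (y i * u / g) = y i by field_simp] at h5

/-- **MODEL + (R1)**, any codimension -/
theorem model_gen (b : Module.Basis (Fin n) F Ω[F⁄ℂ]) (P : PModel ℂ F) {i : Fin (P.N + 1)}
    [IsLocalRing O] [Algebra.FiniteType ℂ A] (hP : P.A i ≤ A) (h : IsLoc A O) {t : Fin c → F}
    (ht : Coords O t) (T : Finset (RZ ℂ F))
    (hT : ∀ W ∈ T, Dvs W ∧ ((∃ f ∈ O, f ∉ W.1) ∨ Cen W.1 O ∨ (c ≤ 2 ∧ ¬ Dom W.1 O)))
    (𝒦 : Finset (Finset F)) (h1 : ∀ K ∈ 𝒦, (1 : F) ∈ K)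
    (h0 : ∀ K ∈ 𝒦, ∀ g ∈ K, g ≠ 0 ∧ g ∈ O) :
    ∃ P' : PModel ℂ F, oP P ∈ On P' ∧ SmZ P' O n c ∧ (∀ W ∈ T, Prm (oP P') W) ∧
      (∀ K ∈ 𝒦, GnK P' K) ∧ ∀ x : Pts P', (lp x).O ≤ O → ZAt O (lp x).O n t := by
  classical
  have hfr : IsFr A := isFr_mono (P.frac' i) hP
  have := Geo.eft P
  choose G hG1 hG0 hG using fun (W : T) (hW : ∃ f ∈ O, f ∉ W.1.1) =>
    exists_fam (isFr_mono hfr h.le) (hT W.1 W.2).1 hW.choose_spec.1 hW.choose_spec.2
  let K₀ : Finset F := Finset.univ.image fun j => P.y j / P.y i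
  let G' : T → Finset F := fun W => if hW : ∃ f ∈ O, f ∉ W.1.1 then G W hW else {1}
  have hK₀ : ∀ g ∈ K₀, g ≠ 0 ∧ g ∈ O := fun g hg => by
    obtain ⟨j, -, rfl⟩ := Finset.mem_image.1 hg
    exact ⟨div_ne_zero (P.y_ne j) (P.y_ne i), h.le (hP (div_mem_chart P.y i j))⟩
  have hG' : ∀ W, (1 : F) ∈ G' W ∧ ∀ g ∈ G' W, g ≠ 0 ∧ g ∈ O := fun W => by
    simp only [G']
    split_ifs with hW
    · exact ⟨hG1 W hW, hG0 W hW⟩
    · simp
  have hK : ∀ K ∈ insert K₀ (𝒦 ∪ Finset.univ.image G'), (1 : F) ∈ K ∧ ∀ g ∈ K, g ≠ 0 ∧ g ∈ O := by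
    intro K hK
    simp only [Finset.mem_insert, Finset.mem_union, Finset.mem_image, Finset.mem_univ,
      true_and] at hK
    rcases hK with rfl | hK | ⟨W, rfl⟩
    exacts [⟨Finset.mem_image.2 ⟨i, Finset.mem_univ _, div_self (P.y_ne i)⟩, hK₀⟩,
      ⟨h1 K hK, h0 K hK⟩, hG' W]
  obtain ⟨P', m, h2, ⟨j, φ, h3⟩, h4⟩ := r1_fam hfr h ht _ (fun K h => (hK K h).1)
    fun K h => (hK K h).2
  have h5 : ∀ K ∈ insert K₀ (𝒦 ∪ Finset.univ.image G'), GnK P' K := fun K hK x => by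
    obtain ⟨j, φ, hx⟩ := exists_lo x
    exact hx ▸ h2 j φ K hK
  have h6 : ∀ x : Pts P', (lp x).O ≤ O → ZAt O (lp x).O m t := fun x hx => by
    obtain ⟨j, φ, hx'⟩ := exists_lo x
    rw [hx'] at hx ⊢
    exact h4 j φ hx
  obtain ⟨x₀, hx₀⟩ := exists_lp j φ
  rw [← hx₀] at h3
  obtain rfl : m = n := by
    obtain ⟨s, -, hs, -⟩ := (h6 x₀ h3).crd
    exact card_eq b hs
  have hZ : SmZ P' O m c := ⟨⟨x₀, h3⟩, fun x hx => (h6 x hx).loc.loc, fun x hx => by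
    obtain ⟨s, σ, h7, h8, -, h9⟩ := (h6 x hx).crd
    exact ⟨s, σ, h7, h8, h9⟩⟩
  refine ⟨P', mxf_mem ((h5 K₀ (by simp)).gn (fun g hg => (hK₀ g hg).1) (P.y_ne i)
    (fun g hg => by simpa [K₀] using hg) fun l => by simp [K₀]), hZ, fun W hW => ?_,
    fun K hK => h5 K (by simp [hK]), h6⟩
  by_cases h7 : ∃ f ∈ O, f ∉ W.1
  · refine hG ⟨W, hW⟩ h7 P' ?_
    have h8 := h5 (G' ⟨W, hW⟩) (by simp)
    simpa only [G', dif_pos h7] using h8
  · rcases (hT W hW).2 with h8 | h8 | h8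
    · exact absurd h8 h7
    · exact SmZ.prm hZ (hT W hW).1 h8
    · push Not at h7
      exact SmZ.prm hZ (hT W hW).1 (SmZ.cen hZ h8.1 (hT W hW).1.ne_top h7 h8.2)

theorem fib_mem {t : Fin 2 → F} (ht : Coords O t) {P' : PModel ℂ F}
    (h : GnK P' (by classical exact {1, t 0, t 1})) : mxf ℂ ![1, t 0, t 1] ∈ On P' := by
  classical
  refine mxf_mem (h.gn (fun g hg => ?_) one_ne_zero (fun g hg => ?_) fun l => ?_)
  · simp only [Finset.mem_insert, Finset.mem_singleton] at hg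
    rcases hg with rfl | rfl | rfl
    exacts [one_ne_zero, ht.ne_zero 0, ht.ne_zero 1]
  · simp only [Finset.mem_insert, Finset.mem_singleton] at hg
    rcases hg with rfl | rfl | rfl
    exacts [⟨0, by simp⟩, ⟨1, by simp⟩, ⟨2, by simp⟩]
  · fin_cases l <;> simp

theorem model_two (b : Module.Basis (Fin n) F Ω[F⁄ℂ]) (P : PModel ℂ F) {i : Fin (P.N + 1)}
    [IsLocalRing O] [Algebra.FiniteType ℂ A] (hP : P.A i ≤ A) (h : IsLoc A O) {t : Fin 2 → F}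
    (ht : Coords O t) (T : Finset (RZ ℂ F)) (hT : ∀ W ∈ T, Dvs W ∧ ¬ Dom W.1 O) :
    ∃ P' : PModel ℂ F, oP P ∈ On P' ∧ SmZ P' O n 2 ∧ (∀ W ∈ T, Prm (oP P') W) ∧
      mxf ℂ ![1, t 0, t 1] ∈ On P' := by
  classical
  obtain ⟨P', h1, h2, h3, h4, -⟩ := model_gen b P hP h ht T
    (fun W hW => ⟨(hT W hW).1, Or.inr (Or.inr ⟨le_rfl, (hT W hW).2⟩)⟩) {{1, t 0, t 1}}
    (by simp) (by
      simp only [Finset.mem_singleton, forall_eq, Finset.mem_insert]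
      rintro g (rfl | rfl | rfl)
      exacts [⟨one_ne_zero, one_mem _⟩, ⟨ht.ne_zero 0, ht.mem 0⟩, ⟨ht.ne_zero 1, ht.mem 1⟩])
  exact ⟨P', h1, h2, h3, fib_mem ht (h4 _ (Finset.mem_singleton_self _))⟩

theorem isLoc_lv {V : ValuationSubring F} (h : ∀ x ∈ A, x ∈ V) : IsLoc A (Qt.lv A V) :=
  ⟨Qt.le_lv _ _, fun _ ⟨e, h1, h2, h3⟩ =>
    ⟨e, h1, ((Qt.dom_lv h).un_iff (Qt.le_lv _ _ h1)).2 h2, h3⟩⟩

/-- a smooth model with the local ring `O` of dimension two -/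
def Model2Stmt : Prop :=
  ∀ (F : Type) [Field F] [Algebra ℂ F] (n : ℕ) (_ : Module.Basis (Fin n) F Ω[F⁄ℂ])
    (P : PModel ℂ F) (V : RZ ℂ F) (i : Fin (P.N + 1)) (U : Finset F) (t : Fin 2 → F)
    (T : Finset (RZ ℂ F)), (∀ x ∈ P.A i, x ∈ V.1) → (∀ u ∈ U, u ∈ V.1) →
    Coords (Qt.ring P i U V) t → (∀ W ∈ T, Dvs W ∧ ¬ Dom W.1 (Qt.ring P i U V)) →
    ∃ P' : PModel ℂ F, oP P ∈ On P' ∧ SmZ P' (Qt.ring P i U V) n 2 ∧ (∀ W ∈ T, Prm (oP P') W) ∧
      mxf ℂ ![1, t 0, t 1] ∈ On P'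

theorem model2 : Model2Stmt := by
  intro F _ _ n b P V i U t T h1 h2 ht hT
  have h3 := Qt.adj_le_val (U := (U : Set F)) h1 h2
  have := P.finiteType i
  have := Qt.finiteType_adj (A := P.A i) U.finite_toSet
  have : IsLocalRing (Qt.ring P i U V) := (Qt.dom_lv h3).isLocalRing
  exact model_two (O := Qt.ring P i U V) b P (Qt.le_adj _ _) (isLoc_lv h3) ht T hT

/-- a higher model with the same local ring which carries the fibration `(1 : t₀ : t₁)` -/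
theorem remodel (b : Module.Basis (Fin n) F Ω[F⁄ℂ]) (h : SmZ P O n 2) :
    ∃ (t : Fin 2 → F) (P' : PModel ℂ F), Coords O t ∧ oP P ∈ On P' ∧ SmZ P' O n 2 ∧
      mxf ℂ ![1, t 0, t 1] ∈ On P' := by
  obtain ⟨t, ht⟩ := SmZ.exists_coords h
  obtain ⟨j, hj⟩ := SmZ.exists_chart h
  have := SmZ.isLocalRing h
  have := P.finiteType j
  obtain ⟨P', h1, h2, -, h3⟩ := model_two b P le_rfl hj ht ∅ (by simp)
  exact ⟨t, P', ht, h1, h2, h3⟩

end Crest.Agent.X262.R139
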