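import Crest.Agent.X277.Res.FinCov
import Crest.Agent.X277.Exc.Der

/-!
# Row 262, R1 + MODEL (helper39), part 1: localisations inside a field

* `IsLoc A O`       : `O` is a localisation of `A`;
* `IsLoc.der_mem`   : values of a derivation on a localisation;
* `exists_pt`       : Nullstellensatz, a closed point of the closure of a point;
* `algInd_coords`   : coordinates are algebraically independent over a coefficient ring;
* `exists_sep`      : separating data for the residue field.
-/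

set_option autoImplicit false

noncomputable section

namespace Crest.Agent.X262.R139

open Crest.Agent.X277 Crest.Agent.X277.Lef Crest.Agent.X277.Res.Out IsLocalRing

variable {k F : Type} [Field k] [Field F] [Algebra k F]

/-- `O` is a localisation of `A` -/
structure IsLoc (A O : Subalgebra k F) : Prop where
  le : A ≤ O
  loc : ∀ x ∈ O, ∃ b ∈ A, Un O b ∧ b * x ∈ A

variable {A B O : Subalgebra k F}

theorem isLoc_lo (φ : A →ₐ[k] k) : IsLoc A (lo A φ) :=
  ⟨le_lo φ, fun _ ⟨b, hb, h⟩ => ⟨b, b.2, un_lo hb, h⟩⟩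

theorem IsLoc.rfl : IsLoc O O := ⟨le_rfl, fun _ h => ⟨1, one_mem _, un_one, by rwa [one_mul]⟩⟩

/-- common denominators -/
theorem IsLoc.exists_den (h : IsLoc A O) {Z : Set F} (hZ : Z.Finite) (hO : ∀ z ∈ Z, z ∈ O) :
    ∃ b ∈ A, Un O b ∧ ∀ z ∈ Z, b * z ∈ A := by
  induction Z, hZ using Set.Finite.induction_on with
  | empty => exact ⟨1, one_mem _, un_one, by simp⟩
  | @insert z Z _ _ ih =>
    obtain ⟨b, h1, h2, h3⟩ := ih fun y hy => hO y (Set.mem_insert_of_mem _ hy)
    obtain ⟨c, h4, h5, h6⟩ := h.loc z (hO z (Set.mem_insert _ _))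
    refine ⟨b * c, mul_mem h1 h4, h2.mul h5, ?_⟩
    rintro y (rfl | hy)
    · rw [mul_assoc]; exact mul_mem h1 h6
    · rw [mul_comm b, mul_assoc]; exact mul_mem h4 (h3 y hy)

/-- change of the ring which is localised -/
theorem IsLoc.of_forall (h : IsLoc A O) (hB : B ≤ O)
    (hA : ∀ a ∈ A, ∃ b ∈ B, Un O b ∧ b * a ∈ B) : IsLoc B O := by
  refine ⟨hB, fun x hx => ?_⟩
  obtain ⟨b, h1, h2, h3⟩ := h.loc x hx
  obtain ⟨c, h4, h5, h6⟩ := hA b h1
  obtain ⟨e, h7, h8, h9⟩ := hA _ h3
  refine ⟨e * (c * b), mul_mem h7 h6, h8.mul (h5.mul h2), ?_⟩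
  rw [show e * (c * b) * x = c * (e * (b * x)) by ring]
  exact mul_mem h4 h9

theorem IsLoc.mono (h : IsLoc A O) (hA : A ≤ B) (hB : B ≤ O) : IsLoc B O :=
  h.of_forall hB fun _ ha => ⟨1, one_mem _, un_one, by rw [one_mul]; exact hA ha⟩

theorem IsLoc.trans (h : IsLoc A B) (h' : IsLoc B O) : IsLoc A O :=
  h'.of_forall (h.le.trans h'.le) fun a ha => by
    obtain ⟨b, h1, h2, h3⟩ := h.loc a ha
    exact ⟨b, h1, h2.mono h'.le, h3⟩

theorem IsLoc.isFr (h : IsLoc A O) (hO : IsFr O) : IsFr A :=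
  hO.of_forall fun a ha => by
    obtain ⟨b, h1, h2, h3⟩ := h.loc a ha
    exact ⟨b, h1, h2.1, h3⟩

theorem isFr_mono (h : IsFr A) (hA : A ≤ B) : IsFr B :=
  h.of_forall fun _ ha => ⟨1, one_mem _, one_ne_zero, by rw [one_mul]; exact hA ha⟩

theorem smul_mem' {M : Submodule O F} {x y : F} (hx : x ∈ O) (hy : y ∈ M) : x * y ∈ M :=
  M.smul_mem (⟨x, hx⟩ : O) hy

theorem der_mem_adjoin {S : Set F} (hS : Algebra.adjoin k S ≤ O) (D : Derivation k F F)
    {M : Submodule O F} (hM : ∀ a ∈ S, D a ∈ M) {x : F} (hx : x ∈ Algebra.adjoin k S) :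
    D x ∈ M := by
  induction hx using Algebra.adjoin_induction with
  | mem a ha => exact hM a ha
  | algebraMap c => rw [D.map_algebraMap]; exact zero_mem _
  | add a b _ _ ha hb => rw [map_add]; exact add_mem ha hb
  | mul a b ha' hb' ha hb =>
    rw [D.leibniz]
    exact add_mem (smul_mem' (hS ha') hb) (smul_mem' (hS hb') ha)

/-- the values of a derivation on a localisation -/
theorem IsLoc.der_mem {S : Set F} (h : IsLoc (Algebra.adjoin k S) O) (D : Derivation k F F)
    {M : Submodule O F} (hM : ∀ a ∈ S, D a ∈ M) {x : F} (hx : x ∈ O) : D x ∈ M := by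
  obtain ⟨b, h1, h2, h3⟩ := h.loc x hx
  have h4 : D x = b⁻¹ * (D (b * x) - x * D b) := by
    rw [D.leibniz, smul_eq_mul, smul_eq_mul, add_sub_cancel_right, ← mul_assoc,
      inv_mul_cancel₀ h2.1, one_mul]
  rw [h4]
  exact smul_mem' h2.2.2 (sub_mem (der_mem_adjoin h.le D hM h3)
    (smul_mem' hx (der_mem_adjoin h.le D hM h1)))

theorem mem_one' {x : F} : x ∈ (1 : Submodule O F) ↔ x ∈ O := by
  rw [Submodule.mem_one]
  exact ⟨fun ⟨y, h⟩ => h ▸ y.2, fun h => ⟨⟨x, h⟩, rfl⟩⟩

theorem un_of_not_van {x : F} (hx : x ∈ O) (h : ¬ Van O x) : Un O x := by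
  by_contra h1
  exact h ⟨hx, h1⟩

theorem Van.neg' {x : F} (hx : Van O x) : Van O (-x) := by
  have := Van.mul_left (neg_mem (one_mem O)) hx
  rwa [neg_one_mul] at this

theorem un_add_van [IsLocalRing O] {x y : F} (hx : Un O x) (hy : Van O y) : Un O (x + y) :=
  un_of_not_van (add_mem hx.2.1 hy.1) fun h => by
    have h1 := h.add (Van.neg' hy)
    rw [add_neg_cancel_right] at h1
    exact h1.2 hx

theorem van_of_le {x : F} (h : B ≤ O) (hx : x ∈ B) (hv : Van O x) : Van B x :=
  ⟨hx, fun hu => hv.2 (hu.mono h)⟩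

/-- the centre of `O` in `A` -/
def ctr [IsLocalRing O] (h : A ≤ O) : Ideal A :=
  (maximalIdeal O).comap (Subalgebra.inclusion h)

theorem mem_ctr [IsLocalRing O] (h : A ≤ O) {a : A} : a ∈ ctr h ↔ Van O a :=
  (van_iff_mem_max (Subalgebra.inclusion h a)).symm

instance [IsLocalRing O] (h : A ≤ O) : (ctr h).IsPrime := Ideal.comap_isPrime _ _

/-- **Nullstellensatz** : a closed point of the closure of `O` outside `b = 0` -/
theorem exists_pt [IsAlgClosed k] [Algebra.FiniteType k A] [IsLocalRing O] (h : A ≤ O) {b : F}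
    (hb : b ∈ A) (hu : Un O b) :
    ∃ ψ : A →ₐ[k] k, ψ ⟨b, hb⟩ ≠ 0 ∧ lo A ψ ≤ O := by
  have : IsJacobsonRing A := isJacobsonRing_of_finiteType (A := k)
  have h1 : (⟨b, hb⟩ : A) ∉ (ctr h).jacobson := by
    rw [isJacobsonRing_iff_prime_eq.1 this _ inferInstance, mem_ctr]
    exact fun h2 => h2.2 hu
  rw [Ideal.jacobson, Ideal.mem_sInf] at h1
  push Not at h1
  obtain ⟨q, ⟨hq1, hq⟩, hq2⟩ := h1
  let : Field (A ⧸ q) := Ideal.Quotient.field q
  have : Module.Finite k (A ⧸ q) := finite_of_finite_type_of_isJacobsonRing k (A ⧸ q)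
  let e : k ≃ₐ[k] A ⧸ q := AlgEquiv.ofBijective (Algebra.ofId k (A ⧸ q))
    (IsAlgClosed.algebraMap_bijective_of_isIntegral (k := k) (K := A ⧸ q))
  have he : ∀ a : A, e.symm.toAlgHom.comp (Ideal.Quotient.mkₐ k q) a = 0 ↔ a ∈ q := fun a => by
    change e.symm (Ideal.Quotient.mk q a) = 0 ↔ _
    rw [map_eq_zero_iff _ e.symm.injective, Ideal.Quotient.eq_zero_iff_mem]
  refine ⟨e.symm.toAlgHom.comp (Ideal.Quotient.mkₐ k q), fun h0 => hq2 ((he _).1 h0),
    lo_le_of_un h fun a ha => un_of_not_van (h a.2) fun hv => ?_⟩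
  exact ha ((he a).2 (hq1 ((mem_ctr h).2 hv)))

/-- coordinates are algebraically independent over a ring of units -/
theorem algInd_coords [CharZero k] [IsLocalRing O] {c : ℕ} {t : Fin c → F} (ht : Coords O t)
    (h : A ≤ O) (hA : ∀ a ∈ A, a ≠ 0 → Un O a) : AlgebraicIndependent A t := by
  classical
  rw [algebraicIndependent_iff]
  intro P hP
  obtain ⟨d, hd⟩ := ht.exists_der
  have hm := maximalIdeal.isMaximal O
  have : Nontrivial (O ⧸ maximalIdeal O) := Ideal.Quotient.nontrivial_iff.2 hm.ne_top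
  have : CharZero (O ⧸ maximalIdeal O) :=
    charZero_of_injective_algebraMap (algebraMap k _).injective
  let ι : A →+* O := Subalgebra.inclusion h
  have h0 : MvPolynomial.eval ht.el (MvPolynomial.map ι P) = 0 := by
    apply Subtype.val_injective
    rw [← MvPolynomial.eval₂_eq_eval_map]
    refine (MvPolynomial.eval₂_comp_left O.val.toRingHom ι ht.el P).trans ?_
    rw [MvPolynomial.aeval_def] at hP
    exact hP
  have key : ∀ e, MvPolynomial.homogeneousComponent e P = 0 := by
    intro e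
    induction e using Nat.strong_induction_on with
    | _ e ih =>
    by_cases he : P.totalDegree < e
    · exact MvPolynomial.homogeneousComponent_eq_zero e P he
    have hh : ∀ i, (MvPolynomial.map ι (MvPolynomial.homogeneousComponent i P)).IsHomogeneous i :=
      fun i => (MvPolynomial.homogeneousComponent_isHomogeneous i P).map _
    have h1 := Res.P0.map_eq_zero_of_mem (R := k) (maximalIdeal O) ⊥ ht.el d hd
      (fun l f hf => by rw [Ideal.mem_bot.1 hf, map_zero]; exact zero_mem _) bot_le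
      ht.span_eq.le e _ (hh e) (by
        rw [← P.sum_homogeneousComponent, map_sum, map_sum, ← Finset.add_sum_erase _ _
          (Finset.mem_range.2 (by omega : e < P.totalDegree + 1))] at h0
        rw [eq_neg_of_add_eq_zero_left h0]
        refine Ideal.mem_sup_right (neg_mem (Ideal.sum_mem _ fun i hi => ?_))
        rcases lt_or_gt_of_ne (Finset.ne_of_mem_erase hi) with h2 | h2
        · rw [ih i h2, map_zero, map_zero]; exact zero_mem _
        · exact Ideal.pow_le_pow_right h2
            ((Ideal.mem_span_pow_iff_exists_isHomogeneous _ _).2 ⟨_, hh i, rfl⟩))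
    ext m
    have h2 := congrArg (MvPolynomial.coeff m) h1
    rw [MvPolynomial.coeff_map, MvPolynomial.coeff_map, MvPolynomial.coeff_zero,
      Ideal.Quotient.eq_zero_iff_mem, ← van_iff_mem_max] at h2
    rw [MvPolynomial.coeff_zero]
    by_contra h3
    exact h2.2 (hA _ (MvPolynomial.coeff m (MvPolynomial.homogeneousComponent e P)).2 h3)
  rw [← P.sum_homogeneousComponent]
  exact Finset.sum_eq_zero fun i _ => key i

theorem aeval_mem (h : A ≤ O) {a : F} (ha : a ∈ O) (Q : Polynomial A) :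
    Polynomial.aeval a Q ∈ O := by
  induction Q using Polynomial.induction_on' with
  | add p q hp hq => rw [map_add]; exact add_mem hp hq
  | monomial n c =>
    rw [Polynomial.aeval_monomial]
    exact mul_mem (h c.2) (pow_mem ha n)

/-- a separable equation modulo the maximal ideal -/
theorem exists_sep_poly [CharZero k] (h : A ≤ O) (hA : ∀ a ∈ A, a ≠ 0 → Un O a) {a : F}
    (ha : a ∈ O) (Q : Polynomial A) (h0 : Q ≠ 0) (hQ : Van O (Polynomial.aeval a Q)) :
    ∃ Q : Polynomial A, Van O (Polynomial.aeval a Q) ∧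
      Un O (Polynomial.aeval a (Polynomial.derivative Q)) := by
  have : CharZero A := charZero_of_injective_algebraMap (algebraMap k A).injective
  induction hn : Q.natDegree using Nat.strong_induction_on generalizing Q with
  | _ n ih =>
  by_cases h1 : Van O (Polynomial.aeval a (Polynomial.derivative Q))
  · have h2 : Q.natDegree ≠ 0 := fun h2 => by
      rw [Polynomial.eq_C_of_natDegree_eq_zero h2] at hQ h0
      rw [Polynomial.aeval_C] at hQ
      exact hQ.2 (hA _ (Q.coeff 0).2 fun h3 => h0 (by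
        rw [show Q.coeff 0 = 0 from Subtype.ext h3, map_zero]))
    exact ih _ (hn ▸ Polynomial.natDegree_derivative_lt h2) _
      (fun h3 => h2 (Polynomial.derivative_eq_zero.1 h3)) h1 rfl
  · exact ⟨Q, hQ, un_of_not_van (aeval_mem h ha _) h1⟩

/-- a transcendence basis inside a generating family -/
theorem exists_tb {κ : Type} [CommRing κ] [IsDomain κ] [Algebra k κ] {ι : Type} [Finite ι]
    (b : ι → κ) (hb : Algebra.adjoin k (Set.range b) = ⊤) :
    ∃ (T : Type) (_ : Fintype T) (j : T → ι), AlgebraicIndependent k (fun τ => b (j τ)) ∧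
      ∀ i, ∃ p : Polynomial (MvPolynomial T k), p ≠ 0 ∧
        p.eval₂ (MvPolynomial.aeval fun τ => b (j τ)).toRingHom (b i) = 0 := by
  have : Algebra.IsAlgebraic (Algebra.adjoin k (Set.range b)) κ :=
    ⟨fun z => isAlgebraic_algebraMap (⟨z, hb ▸ trivial⟩ : Algebra.adjoin k (Set.range b))⟩
  obtain ⟨T, hT, hB⟩ := exists_isTranscendenceBasis_subset (R := k) (Set.range b)
  have : Finite T := (Set.finite_range _).subset hT
  choose j hj using fun τ : T => hT τ.2
  refine ⟨T, Fintype.ofFinite T, j, funext hj ▸ hB.1, fun i => ?_⟩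
  obtain ⟨p, hp0, hp⟩ := hB.isAlgebraic.isAlgebraic (b i)
  refine ⟨p.map hB.1.aevalEquiv.symm.toAlgHom.toRingHom, fun h0 => hp0 (Polynomial.map_injective _
    hB.1.aevalEquiv.symm.injective (h0.trans (Polynomial.map_zero _).symm)), ?_⟩
  rw [Polynomial.eval₂_map, ← hp, Polynomial.aeval_def, funext hj]
  congr 1
  refine RingHom.ext fun z => ?_
  exact (hB.1.algebraMap_aevalEquiv _).symm.trans
    (congrArg _ (hB.1.aevalEquiv.apply_symm_apply z))

theorem exists_tb' {κ : Type} [CommRing κ] [IsDomain κ] [Algebra k κ] {ι : Type} [Finite ι]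
    (b : ι → κ) :
    ∃ (T : Type) (_ : Fintype T) (j : T → ι), AlgebraicIndependent k (fun τ => b (j τ)) ∧
      ∀ i, ∃ p : Polynomial (MvPolynomial T k), p ≠ 0 ∧
        p.eval₂ (MvPolynomial.aeval fun τ => b (j τ)).toRingHom (b i) = 0 := by
  obtain ⟨B, hB⟩ : ∃ B, B = Algebra.adjoin k (Set.range b) := ⟨_, rfl⟩
  have hb : ∀ i, b i ∈ B := fun i => hB ▸ Algebra.subset_adjoin ⟨i, rfl⟩
  obtain ⟨T, _, j, h1, h2⟩ := exists_tb (k := k) (κ := B) (fun i => ⟨b i, hb i⟩) (by
    apply Subalgebra.map_injective (f := B.val) Subtype.val_injective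
    rw [AlgHom.map_adjoin, ← Set.range_comp, Algebra.map_top, Subalgebra.range_val]
    exact hB.symm)
  refine ⟨T, inferInstance, j, h1.map' (f := B.val) Subtype.val_injective, fun i => ?_⟩
  obtain ⟨p, h3, h4⟩ := h2 i
  refine ⟨p, h3, ?_⟩
  have h5 := congrArg B.val.toRingHom h4
  rw [Polynomial.hom_eval₂, map_zero] at h5
  have h6 : (MvPolynomial.aeval fun τ => b (j τ)).toRingHom = B.val.toRingHom.comp
      (MvPolynomial.aeval fun τ => (⟨b (j τ), hb _⟩ : B)).toRingHom :=
    RingHom.ext fun P => (MvPolynomial.comp_aeval_apply (fun τ => (⟨b (j τ), hb _⟩ : B))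
      B.val P).symm
  rw [h6]
  exact h5

/-- **separating data** : `x` lifts a transcendence basis of the residue field -/
theorem exists_sep [CharZero k] [IsLocalRing O] {ι : Type} [Finite ι] (a : ι → F)
    (h : ∀ j, a j ∈ O) : ∃ (T : Type) (_ : Fintype T) (x : T → F), (∀ τ, x τ ∈ Set.range a) ∧
      AlgebraicIndependent k x ∧ (∀ y ∈ Algebra.adjoin k (Set.range x), y ≠ 0 → Un O y) ∧
      ∀ j, ∃ Q : Polynomial (Algebra.adjoin k (Set.range x)), Van O (Polynomial.aeval (a j) Q) ∧
        Un O (Polynomial.aeval (a j) (Polynomial.derivative Q)) := by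
  classical
  let a' : ι → O := fun j => ⟨a j, h j⟩
  let π : O →ₐ[k] ResidueField O := IsScalarTower.toAlgHom k O _
  have hπ : ∀ y : O, π y = 0 ↔ Van O y := fun y =>
    (residue_eq_zero_iff y).trans (van_iff_mem_max y).symm
  obtain ⟨T, _, j, hb, hp⟩ := exists_tb' (k := k) fun i => π (a' i)
  have hval : ∀ P : MvPolynomial T k, ((MvPolynomial.aeval (fun τ => a' (j τ)) P : O) : F) =
      MvPolynomial.aeval (fun τ => a (j τ)) P := fun P =>
    MvPolynomial.comp_aeval_apply _ O.val P
  have hπP : ∀ P : MvPolynomial T k, π (MvPolynomial.aeval (fun τ => a' (j τ)) P) =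
      MvPolynomial.aeval (fun τ => π (a' (j τ))) P := fun P => MvPolynomial.comp_aeval_apply _ π P
  have hu : ∀ P : MvPolynomial T k, P ≠ 0 → Un O (MvPolynomial.aeval (fun τ => a (j τ)) P) :=
    fun P hP => hval P ▸ un_of_not_van (Subtype.property _) fun hv =>
      hP (algebraicIndependent_iff.1 hb P (hπP P ▸ (hπ _).2 hv))
  have hi : AlgebraicIndependent k fun τ => a (j τ) := algebraicIndependent_iff.2 fun P hP => by
    by_contra h0
    exact (hu P h0).1 hP
  have hU : ∀ y ∈ Algebra.adjoin k (Set.range fun τ => a (j τ)), y ≠ 0 → Un O y := by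
    intro y hy h0
    rw [Algebra.adjoin_range_eq_range_aeval] at hy
    obtain ⟨P, rfl⟩ := hy
    exact hu P fun h2 => h0 (by rw [h2]; exact map_zero _)
  refine ⟨T, inferInstance, fun τ => a (j τ), fun τ => ⟨_, rfl⟩, hi, hU, fun i => ?_⟩
  obtain ⟨p, hp0, hp⟩ := hp i
  refine exists_sep_poly (Algebra.adjoin_le (by rintro _ ⟨τ, rfl⟩; exact h _)) hU (h i)
    (p.map hi.aevalEquiv.toAlgHom.toRingHom) (fun h0 => hp0 (Polynomial.map_injective _
      hi.aevalEquiv.injective (h0.trans (Polynomial.map_zero _).symm))) ?_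
  let θ : MvPolynomial T k →+* O := (MvPolynomial.aeval fun τ => a' (j τ)).toRingHom
  have h2 : π (p.eval₂ θ (a' i)) = 0 := by
    rw [← hp]
    refine (Polynomial.hom_eval₂ p θ π.toRingHom (a' i)).trans ?_
    congr 1
    exact RingHom.ext hπP
  have h3 : ((p.eval₂ θ (a' i) : O) : F) =
      Polynomial.aeval (a i) (p.map hi.aevalEquiv.toAlgHom.toRingHom) := by
    rw [Polynomial.aeval_def, Polynomial.eval₂_map]
    refine (Polynomial.hom_eval₂ p θ O.val.toRingHom (a' i)).trans ?_
    congr 1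
    exact RingHom.ext hval
  exact h3 ▸ (hπ _).1 h2

end Crest.Agent.X262.R139
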