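import Crest.Agent.X262.R139.Spr
import Crest.Agent.X262.Res.Main

/-!
# Row 262, R1 + MODEL (helper39), part 3: a smooth model on which the closure of a regular point
is smooth

* `ZAt O L n t` : `O` is the localisation of `L` at a prime generated by coordinates;
* `r1_model`    : for a projective model with hyperplanes as parameters;
* `r1_fam`      : for a finite set of families of functions.
-/

set_option autoImplicit false

noncomputable section

namespace Crest.Agent.X262.R139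

open Crest.Agent.X277 Crest.Agent.X277.Lef Crest.Agent.X277.Res.Out IsLocalRing

variable {k F : Type} [Field k] [Field F] [Algebra k F] {A B O L : Subalgebra k F}

/-- `O` is the localisation of `L` at a prime which is generated by coordinates -/
structure ZAt (O L : Subalgebra k F) (n : ℕ) {c : ℕ} (t : Fin c → F) : Prop where
  loc : IsLoc L O
  crd : ∃ (s : Fin n → F) (σ : Fin c → Fin n), Coords L s ∧ Function.Injective σ ∧
    (∀ l, Un O (s (σ l) / t l)) ∧ ∀ a ∈ L, Van O a ↔ a ∈ Submodule.span L (Set.range (s ∘ σ))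

/-- a coordinate is irreducible -/
theorem un_of_coord [IsLocalRing O] {c : ℕ} {t : Fin c → F} (ht : Coords O t) {l : Fin c}
    {u x y : F} (hu : Un O u) (hx : Van O x) (hy : y ∈ O) (h : u * t l = x * y) : Un O y := by
  obtain ⟨d, hd, hd'⟩ := ht.der
  have h1 := congrArg (d l) h
  rw [(d l).leibniz, (d l).leibniz, hd', if_pos rfl] at h1
  simp only [smul_eq_mul, mul_one] at h1
  have h2 : Un O (y * d l x) := by
    rw [show y * d l x = u + (d l u * t l + -(d l y * x)) by linear_combination -h1]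
    exact un_add_van hu ((Van.mul_left (hd l _ hu.2.1) (ht.van l)).add
      (Van.neg' (Van.mul_left (hd l _ hy) hx)))
  exact Un.of_mul hy (hd l _ hx.1) h2

theorem exists_factor [IsLocalRing O] {c n : ℕ} {t : Fin c → F} (ht : Coords O t) {l : Fin c}
    {u : F} (hu : Un O u) {s : Fin n → F} (hs : ∀ m, s m ∈ O) {β : Fin n → ℕ}
    (h : u * t l = ∏ m, s m ^ β m) : ∃ m, Un O (s m / t l) := by
  classical
  by_cases h1 : ∀ m, β m = 0 ∨ Un O (s m)
  · have h2 : Un O (u * t l) := h ▸ Un.prod _ fun m _ => (h1 m).elim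
      (fun h0 => by rw [h0, pow_zero]; exact un_one) fun h0 => h0.pow _
    exact absurd (Un.of_mul (ht.mem l) hu.2.1 (by rwa [mul_comm])) (ht.van l).2
  push Not at h1
  obtain ⟨m, h2, h3⟩ := h1
  obtain ⟨e, he⟩ := Nat.exists_eq_succ_of_ne_zero h2
  rw [← Finset.mul_prod_erase _ _ (Finset.mem_univ m), he, pow_succ', mul_assoc] at h
  have h4 := un_of_coord ht hu ⟨hs m, h3⟩
    (mul_mem (pow_mem (hs m) e) (prod_mem fun j _ => pow_mem (hs j) _)) h
  refine ⟨m, ?_⟩
  have h5 := hu.div h4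
  rwa [(div_eq_div_iff h4.1 (ht.ne_zero l)).2 h] at h5

theorem isPrime_span [CharZero k] [IsLocalRing L] [IsNoetherianRing L] {n : ℕ} {s : Fin n → F}
    (hs : Coords L s) (S : Set (Fin n)) : (Ideal.span (hs.el '' S)).IsPrime := by
  obtain ⟨d, hd⟩ := hs.exists_der
  have hm := maximalIdeal.isMaximal L
  have : Nontrivial (L ⧸ maximalIdeal L) := Ideal.Quotient.nontrivial_iff.2 hm.ne_top
  have : CharZero (L ⧸ maximalIdeal L) :=
    charZero_of_injective_algebraMap (algebraMap k _).injective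
  exact Res.P0.isPrime_span_coords (maximalIdeal L) hs.el d hd hs.span_eq S
    fun f hf => mem_of_forall_sup_pow hm.ne_top hf

theorem mem_span_iff {n c : ℕ} {s : Fin n → F} (hs : Coords L s) (σ : Fin c → Fin n) (a : L) :
    a ∈ Ideal.span (hs.el '' Set.range σ) ↔ (a : F) ∈ Submodule.span L (Set.range (s ∘ σ)) := by
  rw [← Set.range_comp, Ideal.span, Submodule.mem_span_range_iff_exists_fun,
    Submodule.mem_span_range_iff_exists_fun]
  refine exists_congr fun r => ?_
  rw [← Subtype.coe_inj, AddSubmonoidClass.coe_finsetSum]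
  rfl

theorem zAt_of [CharZero k] [IsLocalRing O] [IsLocalRing L] [IsNoetherianRing L] (h : IsLoc L O)
    {c n : ℕ} {t : Fin c → F} (ht : Coords O t) {s : Fin n → F} (hs : Coords L s)
    (h1 : ∀ l, ∃ m, Un O (s m / t l)) : ZAt O L n t := by
  choose σ hσ using h1
  have hv : ∀ l, Van O (s (σ l)) := fun l => by
    have h2 := Van.mul_left (hσ l).2.1 (ht.van l)
    rwa [div_mul_cancel₀ _ (ht.ne_zero l)] at h2
  have hJ : ∀ a ∈ Submodule.span L (Set.range (s ∘ σ)), Van O a := fun a ha => by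
    obtain ⟨r, rfl⟩ := (Submodule.mem_span_range_iff_exists_fun _).1 ha
    exact Van.sum _ fun l _ => Van.mul_left (h.le (r l).2) (hv l)
  refine ⟨h, s, σ, hs, fun l l' hl => ?_, hσ, fun a ha => ⟨fun h2 => ?_, hJ a⟩⟩
  · by_contra h2
    refine ht.div_notMem h2 ?_
    have h3 := ((hσ l).div (hσ l')).2.1
    rwa [hl, div_div_div_cancel_left' _ _ (hs.ne_zero _)] at h3
  · obtain ⟨r, hr, h3⟩ := ht.gen a h2
    obtain ⟨b, h4, h5, h6⟩ := h.exists_den (Set.finite_range fun l => r l / (s (σ l) / t l)) (by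
      rintro _ ⟨l, rfl⟩
      beta_reduce
      rw [div_eq_mul_inv]
      exact mul_mem (hr l) (hσ l).2.2)
    have h7 : b * a ∈ Submodule.span L (Set.range (s ∘ σ)) := by
      rw [h3, Finset.mul_sum]
      refine sum_mem fun l _ => ?_
      have h8 := smul_mem' (M := Submodule.span L (Set.range (s ∘ σ))) (h6 _ ⟨l, rfl⟩)
        (Submodule.subset_span ⟨l, rfl⟩)
      have h9 := hs.ne_zero (σ l)
      have h10 := ht.ne_zero l
      rwa [Function.comp_apply, show b * (r l / (s (σ l) / t l)) * s (σ l) = b * (r l * t l) by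
        field_simp] at h8
    rcases (isPrime_span hs (Set.range σ)).mem_or_mem
      ((mem_span_iff hs σ (⟨b, h4⟩ * ⟨a, ha⟩)).2 h7) with h8 | h8
    · exact absurd h5 (hJ _ ((mem_span_iff hs σ _).1 h8)).2
    · exact (mem_span_iff hs σ _).1 h8

/-- a valuation ring as a subalgebra -/
def vsub (W : ValuationSubring F) (h : ∀ c, algebraMap k F c ∈ W) : Subalgebra k F :=
  { W.toSubring with algebraMap_mem' := h }

instance (W : ValuationSubring F) (h : ∀ c, algebraMap k F c ∈ W) : IsLocalRing (vsub W h) :=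
  inferInstanceAs (IsLocalRing W)

/-- every valuation ring has a centre on a projective model -/
theorem exists_centre [IsAlgClosed k] (P : PModel k F) (W : ValuationSubring F)
    (h : ∀ c, algebraMap k F c ∈ W) :
    ∃ (j : Fin (P.N + 1)) (φ : P.A j →ₐ[k] k), ∀ x ∈ lo (P.A j) φ, x ∈ W := by
  obtain ⟨j, -, hj⟩ := Finset.exists_max_image Finset.univ (fun j => W.valuation (P.y j))
    Finset.univ_nonempty
  have := P.finiteType j
  have h1 : P.A j ≤ vsub W h := chart_le fun l => (W.valuation_le_one_iff _).1 (by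
    rw [map_div₀, div_le_one₀ (zero_lt_iff.2 ((map_ne_zero _).2 (P.y_ne j)))]
    exact hj l (Finset.mem_univ l))
  obtain ⟨φ, -, h2⟩ := exists_pt h1 (one_mem _) un_one
  exact ⟨j, φ, h2⟩

/-- **(R1)** for a projective model -/
theorem r1_model [IsAlgClosed k] [CharZero k] [IsLocalRing O] {N : ℕ} {y : Fin (N + 1) → F}
    (hy : ∀ i, y i ≠ 0) {i : Fin (N + 1)} (hfr : IsFr (chart k y i)) (h : IsLoc (chart k y i) O)
    {c : ℕ} (β : Fin c → Fin (N + 1)) (ht : Coords O fun l => y (β l) / y i) :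
    ∃ (P : PModel k F) (n : ℕ),
      (∀ (j : Fin (P.N + 1)) (φ : P.A j →ₐ[k] k), ∃ i₀, ∀ j', y j' / y i₀ ∈ lo (P.A j) φ) ∧
      (∃ (j : Fin (P.N + 1)) (φ : P.A j →ₐ[k] k), lo (P.A j) φ ≤ O) ∧
      ∀ (j : Fin (P.N + 1)) (φ : P.A j →ₐ[k] k), lo (P.A j) φ ≤ O →
        ZAt O (lo (P.A j) φ) n fun l => y (β l) / y i := by
  classical
  obtain ⟨P, n, -, hP⟩ := Res.plusStmt k F N y (Set.range β) 1 hy (hfr.chart hy 0)
    fun j => ⟨0, fun a => by simp⟩
  refine ⟨P, n, fun j φ => ?_, ?_, fun j φ hle => ?_⟩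
  · obtain ⟨s, i₀, h1⟩ := hP j φ
    exact ⟨i₀, h1.dom⟩
  · have := finiteType_chart (k := k) y i
    obtain ⟨ψ, m, s, σ, h1, -, h2, h3, h4⟩ := spread h ht Set.finite_empty (by simp)
    have hS : Res.Snc y (Set.range β) i (lo _ ψ) := by
      refine ⟨m, s, fun j => if hj : j ∈ Set.range β then some (σ hj.choose) else none, h2,
        fun j hj j' hj' l h5 h6 => ?_, fun j hj => ?_⟩
      · simp only [dif_pos hj, Option.some_inj] at h5
        simp only [dif_pos hj', Option.some_inj] at h6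
        rw [← hj.choose_spec, ← hj'.choose_spec, h3 (h5.trans h6.symm)]
      · beta_reduce
        rw [dif_pos hj, Option.elim_some, h4, hj.choose_spec,
          div_self (div_ne_zero (hy j) (hy i))]
        exact un_one
    obtain ⟨W, hW, hW'⟩ := exists_val _ ψ
    obtain ⟨j, φ, hφ⟩ := exists_centre P W fun a => hW _ (Subalgebra.algebraMap_mem _ a)
    obtain ⟨s', i₀, h5⟩ := hP j φ
    have hn : ∀ x ∈ W.nonunits, ¬ Un (lo (P.A j) φ) x := fun x hx hu =>
      (W.inv_mem_nonunits_iff.1 (by rwa [inv_inv] : x⁻¹⁻¹ ∈ W.nonunits)).elim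
        (inv_ne_zero hu.1) fun h6 => h6 (hφ _ hu.2.2)
    have hu : Un (lo (P.A j) φ) (y i / y i₀) := by
      let a : chart k y i := ⟨y i₀ / y i, div_mem_chart y i i₀⟩
      have h6 := hW' (a - algebraMap k _ (ψ a)) (by simp)
      have h7 : y i / y i₀ * (y i₀ / y i - algebraMap k F (ψ a)) ∈ W.nonunits := by
        rw [ValuationSubring.mem_nonunits_iff] at h6 ⊢
        rw [map_mul]
        exact mul_lt_one_of_nonneg_of_lt_one_right
          ((W.valuation_le_one_iff _).2 (hφ _ (h5.dom i))) zero_le h6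
      have h8 : y i / y i₀ * (y i₀ / y i - algebraMap k F (ψ a)) =
          1 - y i / y i₀ * algebraMap k F (ψ a) := by
        have := hy i
        have := hy i₀
        field_simp
      rw [h8] at h7
      have h9 := un_add_van un_one (Van.neg' ⟨sub_mem (one_mem _) (mul_mem (h5.dom i)
        (Subalgebra.algebraMap_mem _ _)), hn _ h7⟩)
      rw [← sub_eq_add_neg, sub_sub_cancel] at h9
      exact Un.of_mul (h5.dom i) (Subalgebra.algebraMap_mem _ _) h9
    have hle : chart k y i ≤ lo (P.A j) φ := chart_le fun l => by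
      rw [← div_div_div_cancel_right₀ (hy i₀), div_eq_mul_inv]
      exact mul_mem (h5.dom l) hu.2.2
    exact ⟨j, φ, (h5.iso i ψ hS fun a => ⟨hle a.2, fun h6 => hn _ (hW' a h6)⟩).trans_le h1⟩
  · obtain ⟨s, i₀, h1⟩ := hP j φ
    have := P.finiteType j
    have := isNoetherianRing_lo (P.A j) φ
    have hu : Un O (y i / y i₀) := ⟨div_ne_zero (hy i) (hy i₀), hle (h1.dom i), by
      rw [inv_div]; exact h.le (div_mem_chart y i i₀)⟩
    refine zAt_of (h.of_forall hle fun a ha => ?_) ht h1.coords fun l => ?_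
    · obtain ⟨e, he⟩ := exists_pow_mul_mem_chart hy i₀ i ha
      exact ⟨_, pow_mem (h1.dom i) e, hu.pow e, chart_le h1.dom he⟩
    · obtain ⟨γ, h2⟩ := h1.mono (β l) ⟨l, rfl⟩
      refine exists_factor ht (hu.div (h2.mono hle)) (fun m => hle (h1.coords.mem m)) (β := γ) ?_
      have h3 : ∏ m, s m ^ γ m ≠ 0 :=
        Finset.prod_ne_zero_iff.2 fun m _ => pow_ne_zero _ (h1.coords.ne_zero m)
      have := hy i
      have := hy i₀
      have := hy (β l)
      field_simp

/-- **(R1)** for finitely many families of functions -/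
theorem r1_fam [IsAlgClosed k] [CharZero k] [IsLocalRing O] [Algebra.FiniteType k A]
    (hfr : IsFr A) (h : IsLoc A O) {c : ℕ} {t : Fin c → F} (ht : Coords O t)
    (𝒦 : Finset (Finset F)) (h1 : ∀ K ∈ 𝒦, (1 : F) ∈ K)
    (h0 : ∀ K ∈ 𝒦, ∀ g ∈ K, g ≠ 0 ∧ g ∈ O) :
    ∃ (P : PModel k F) (n : ℕ),
      (∀ (j : Fin (P.N + 1)) (φ : P.A j →ₐ[k] k), ∀ K ∈ 𝒦, ∃ g₀ ∈ K, ∀ g ∈ K,
        g / g₀ ∈ lo (P.A j) φ) ∧
      (∃ (j : Fin (P.N + 1)) (φ : P.A j →ₐ[k] k), lo (P.A j) φ ≤ O) ∧
      ∀ (j : Fin (P.N + 1)) (φ : P.A j →ₐ[k] k), lo (P.A j) φ ≤ O → ZAt O (lo (P.A j) φ) n t := by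
  classical
  obtain ⟨S, hS⟩ := (Subalgebra.fg_iff_finiteType A).2 inferInstance
  let K₀ : Finset F := insert 1 (S.erase 0 ∪ Finset.univ.image t)
  let G : Option 𝒦 → Finset F := fun a => a.elim K₀ Subtype.val
  have hG1 : ∀ a, (1 : F) ∈ G a := by
    rintro (_ | a)
    exacts [Finset.mem_insert_self _ _, h1 _ a.2]
  have hG0 : ∀ a, ∀ g ∈ G a, g ≠ 0 ∧ g ∈ O := by
    rintro (_ | a) g hg
    · rcases Finset.mem_insert.1 hg with rfl | hg
      · exact ⟨one_ne_zero, one_mem _⟩
      rcases Finset.mem_union.1 hg with hg | hg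
      · exact ⟨Finset.ne_of_mem_erase hg,
          h.le (hS ▸ Algebra.subset_adjoin (Finset.mem_of_mem_erase hg))⟩
      · obtain ⟨l, -, rfl⟩ := Finset.mem_image.1 hg
        exact ⟨ht.ne_zero l, ht.mem l⟩
    · exact h0 _ a.2 g hg
  let J : Type := ∀ a, G a
  let j₀ : J := fun a => ⟨1, hG1 a⟩
  have : Nonempty J := ⟨j₀⟩
  obtain ⟨N, hN⟩ := Nat.exists_eq_succ_of_ne_zero (Fintype.card_pos (α := J)).ne'
  let ε : J ≃ Fin (N + 1) := Fintype.equivFinOfCardEq hN
  let Z : J → F := fun j => ∏ a, (j a : F)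
  have hj : ∀ (j : J) a, (j a : F) ≠ 0 := fun j a => (hG0 a _ (j a).2).1
  have hZ : ∀ j, Z j ≠ 0 := fun j => Finset.prod_ne_zero_iff.2 fun a _ => hj j a
  have hup : ∀ (j : J) a (g : G a), Z (Function.update j a g) / Z j = g / j a := by
    intro j a g
    simp only [Z]
    rw [← Finset.mul_prod_erase _ _ (Finset.mem_univ a),
      ← Finset.mul_prod_erase _ (fun a => (j a : F)) (Finset.mem_univ a), Function.update_self,
      Finset.prod_congr rfl fun a' ha' => by
        rw [Function.update_of_ne (Finset.ne_of_mem_erase ha')],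
      mul_div_mul_right _ _ (Finset.prod_ne_zero_iff.2 fun a _ => hj j a)]
  let y : Fin (N + 1) → F := fun i => Z (ε.symm i)
  have hy : ∀ j j', y (ε j) / y (ε j') = Z j / Z j' := fun j j' => by simp [y]
  have hA : A ≤ chart k y (ε j₀) := by
    rw [← hS]
    refine Algebra.adjoin_le fun g hg => ?_
    by_cases hg0 : g = 0
    · exact hg0 ▸ zero_mem _
    have h2 := div_mem_chart (k := k) y (ε j₀) (ε (Function.update j₀ none ⟨g,
      Finset.mem_insert_of_mem (Finset.mem_union_left _ (Finset.mem_erase.2 ⟨hg0, hg⟩))⟩))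
    rwa [hy, hup, div_one] at h2
  have hO : chart k y (ε j₀) ≤ O := chart_le fun i => by
    have h2 : y (ε j₀) = 1 := by simp [y, Z, j₀]
    rw [h2, div_one]
    exact prod_mem fun a _ => (hG0 a _ (ε.symm i a).2).2
  let β : Fin c → Fin (N + 1) := fun l => ε (Function.update j₀ none ⟨t l,
    Finset.mem_insert_of_mem (Finset.mem_union_right _ (Finset.mem_image_of_mem t
      (Finset.mem_univ l)))⟩)
  have hβ : (fun l => y (β l) / y (ε j₀)) = t := funext fun l => by rw [hy, hup, div_one]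
  obtain ⟨P, n, h2, h3, h4⟩ := r1_model (fun i => hZ _) (isFr_mono hfr hA) (h.mono hA hO) β
    (hβ ▸ ht)
  refine ⟨P, n, fun j φ K hK => ?_, h3, hβ ▸ h4⟩
  obtain ⟨i₀, h5⟩ := h2 j φ
  obtain ⟨j', rfl⟩ := ε.surjective i₀
  refine ⟨_, (j' (some ⟨K, hK⟩)).2, fun g hg => ?_⟩
  have h6 := h5 (ε (Function.update j' (some ⟨K, hK⟩) ⟨g, hg⟩))
  rwa [hy, hup] at h6

end Crest.Agent.X262.R139
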