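import Crest.Agent.X262.R139.Loc

/-!
# Row 262, R1 + MODEL (helper39), part 2: spreading out of coordinates

* `exists_frame` : coordinates of a local ring at a non closed point extend to a frame;
* `spread`       : and to coordinates at a closed point of the closure.
-/

set_option autoImplicit false

noncomputable section

namespace Crest.Agent.X262.R139

open Crest.Agent.X277 Crest.Agent.X277.Lef Crest.Agent.X277.Res.Out IsLocalRing

variable {k F : Type} [Field k] [Field F] [Algebra k F] {A B O : Subalgebra k F}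

theorem der_aeval (D : Derivation k F F) (hD : ∀ x ∈ A, D x ∈ O) {a : F} (ha : a ∈ O)
    (Q : Polynomial A) : D (Polynomial.aeval a Q) -
      Polynomial.aeval a (Polynomial.derivative Q) * D a ∈ O := by
  induction Q using Polynomial.induction_on' with
  | add p q hp hq =>
    rw [map_add, map_add, map_add, map_add, add_mul, add_sub_add_comm]
    exact add_mem hp hq
  | monomial n c =>
    rw [Polynomial.derivative_monomial, Polynomial.aeval_monomial, Polynomial.aeval_monomial,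
      D.leibniz, D.leibniz_pow, map_mul, map_natCast]
    have h1 : (algebraMap A F c) • n • a ^ (n - 1) • D a + a ^ n • D (algebraMap A F c) -
        algebraMap A F c * n * a ^ (n - 1) * D a = a ^ n * D c := by
      simp only [smul_eq_mul, nsmul_eq_mul]
      change _ + _ * D c - _ = _
      ring
    rw [h1]
    exact mul_mem (pow_mem ha n) (hD c c.2)

/-- a derivation which is regular on the coordinates and on separating elements is regular -/
theorem der_reg [IsLocalRing O] {ι : Type} [Finite ι] {a : ι → F}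
    (h : IsLoc (Algebra.adjoin k (Set.range a)) O) {c : ℕ} {t : Fin c → F} (ht : Coords O t)
    (hA : A ≤ O) (hQ : ∀ j, ∃ Q : Polynomial A, Van O (Polynomial.aeval (a j) Q) ∧
      Un O (Polynomial.aeval (a j) (Polynomial.derivative Q)))
    (D : Derivation k F F) (h1 : ∀ l, D (t l) ∈ O) (h2 : ∀ x ∈ A, D x ∈ O) :
    ∀ x ∈ O, D x ∈ O := by
  have ha : ∀ j, a j ∈ O := fun j => h.le (Algebra.subset_adjoin ⟨j, rfl⟩)
  let M : Submodule O F := Submodule.span O (Set.range fun j => D (a j))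
  have hM : ∀ x ∈ O, D x ∈ M := fun x hx => h.der_mem D
    (by rintro _ ⟨j, rfl⟩; exact Submodule.subset_span ⟨j, rfl⟩) hx
  have key : M ≤ 1 := by
    refine Submodule.le_of_le_smul_of_le_jacobson_bot (I := maximalIdeal O)
      (Submodule.fg_span (Set.finite_range _)) (maximalIdeal_le_jacobson _) ?_
    rw [Submodule.span_le]
    rintro _ ⟨j, rfl⟩
    obtain ⟨Q, h3, h4⟩ := hQ j
    obtain ⟨r, hr, h5⟩ := ht.gen _ h3
    have h6 := der_aeval D h2 (ha j) Q
    have h7 : D (Polynomial.aeval (a j) Q) ∈ (1 : Submodule O F) ⊔ maximalIdeal O • M := by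
      rw [h5, map_sum]
      refine sum_mem fun l _ => ?_
      rw [D.leibniz]
      exact Submodule.add_mem_sup (mem_one'.2 (mul_mem (hr l) (h1 l)))
        (Submodule.smul_mem_smul (r := ht.el l) ((van_iff_mem_max _).1 (ht.van l)) (hM _ (hr l)))
    have h8 := smul_mem' h4.2.2 (sub_mem h7 (Submodule.mem_sup_left (mem_one'.2 h6)))
    rwa [sub_sub_cancel, ← mul_assoc, inv_mul_cancel₀ h4.1, one_mul] at h8
  exact fun x hx => mem_one'.1 (key (hM x hx))

/-- **frames at non closed points** -/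
theorem exists_frame [CharZero k] [IsLocalRing O] {ι : Type} [Finite ι] {a : ι → F}
    (h : IsLoc (Algebra.adjoin k (Set.range a)) O) {c : ℕ} {t : Fin c → F} (ht : Coords O t) :
    ∃ (T : Type) (_ : Fintype T) (_ : DecidableEq T) (x : T → F)
      (D : Fin c ⊕ T → Derivation k F F), (∀ τ, x τ ∈ Set.range a) ∧
      (∀ y ∈ Algebra.adjoin k (Set.range x), y ≠ 0 → Un O y) ∧
      (∀ j, ∃ Q : Polynomial (Algebra.adjoin k (Set.range x)), Van O (Polynomial.aeval (a j) Q) ∧
        Un O (Polynomial.aeval (a j) (Polynomial.derivative Q))) ∧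
      (∀ e, ∀ y ∈ O, D e y ∈ O) ∧ ∀ e e', D e (Sum.elim t x e') = if e = e' then 1 else 0 := by
  classical
  have ha : ∀ j, a j ∈ O := fun j => h.le (Algebra.subset_adjoin ⟨j, rfl⟩)
  obtain ⟨T, _, x, h1, h2, h3, h4⟩ := exists_sep a ha
  have hx : Algebra.adjoin k (Set.range x) ≤ O := Algebra.adjoin_le (by
    rintro _ ⟨τ, rfl⟩
    obtain ⟨j, hj⟩ := h1 τ
    exact hj ▸ ha j)
  have h5 := h2.sumElim (algInd_coords ht hx h3)
  choose D hD using fun e : Fin c ⊕ T => Exc.exists_der h5 fun e' => if e = e' then 1 else 0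
  have h6 : ∀ e e', D e (Sum.elim t x e') ∈ O := fun e e' => by
    rw [hD]
    split_ifs
    · exact one_mem _
    · exact zero_mem _
  refine ⟨T, inferInstance, inferInstance, x, D, h1, h3, h4, fun e => ?_, fun e e' => ?_⟩
  · refine der_reg h ht hx h4 (D e) (fun l => h6 e (Sum.inl l)) fun y hy => ?_
    refine mem_one'.1 (der_mem_adjoin hx (D e) ?_ hy)
    rintro _ ⟨τ, rfl⟩
    exact mem_one'.2 (h6 e (Sum.inr τ))
  · rw [hD]

theorem coords_of_fintype {κ : Type} [Fintype κ] [DecidableEq κ] {s : κ → F}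
    (h1 : ∀ e, Van O (s e)) (h2 : ∀ y, Van O y → y ∈ Submodule.span O (Set.range s))
    (D : κ → Derivation k F F) (h3 : ∀ e, ∀ y ∈ O, D e y ∈ O)
    (h4 : ∀ e e', D e (s e') = if e = e' then 1 else 0) {n : ℕ} (ε : Fin n ≃ κ) :
    Coords O (s ∘ ε) := by
  refine ⟨fun l => h1 _, fun y hy => ?_, fun l => D (ε l), fun l => h3 _, fun l j => ?_⟩
  · obtain ⟨r, hr⟩ := (Submodule.mem_span_range_iff_exists_fun _).1 (h2 y hy)
    refine ⟨fun l => r (ε l), fun l => (r _).2, ?_⟩
    rw [← hr, ← ε.sum_comp]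
    rfl
  · rw [Function.comp_apply, h4]
    simp only [ε.apply_eq_iff_eq]

/-- constants plus an ideal -/
def kI (I : Submodule O F) (hI : ∀ y ∈ I, y ∈ O) : Subalgebra k F where
  carrier := {y | ∃ c : k, y - algebraMap k F c ∈ I}
  mul_mem' := by
    rintro y z ⟨c, hc⟩ ⟨e, he⟩
    refine ⟨c * e, ?_⟩
    rw [show y * z - algebraMap k F (c * e) = (z - algebraMap k F e + algebraMap k F e) *
      (y - algebraMap k F c) + algebraMap k F c * (z - algebraMap k F e) by rw [map_mul]; ring]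
    exact add_mem (smul_mem' (add_mem (hI _ he) (O.algebraMap_mem e)) hc)
      (smul_mem' (O.algebraMap_mem c) he)
  add_mem' := by
    rintro y z ⟨c, hc⟩ ⟨e, he⟩
    exact ⟨c + e, by rw [map_add, add_sub_add_comm]; exact add_mem hc he⟩
  algebraMap_mem' c := ⟨c, by rw [sub_self]; exact zero_mem _⟩

theorem mem_of_kI [IsLocalRing O] {I : Submodule O F} (hI : ∀ y ∈ I, Van O y) {y : F}
    (h : y ∈ kI I fun y hy => (hI y hy).1) (hy : Van O y) : y ∈ I := by
  obtain ⟨c, hc⟩ := h
  by_cases h0 : c = 0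
  · rwa [h0, map_zero, sub_zero] at hc
  · have h1 := hy.add (Van.neg' (hI _ hc))
    rw [← sub_eq_add_neg, sub_sub_cancel] at h1
    exact absurd ⟨by simpa using h0, h1.1, by rw [← map_inv₀]; exact O.algebraMap_mem _⟩ h1.2

/-- Hensel's uniqueness -/
theorem sub_mem_of_sep [IsLocalRing O] {I : Submodule O F} (hI : ∀ y ∈ I, Van O y) (hA : A ≤ O)
    (hA' : A ≤ kI I fun y hy => (hI y hy).1) {a : F} {c : k} (ha : Van O (a - algebraMap k F c))
    {Q : Polynomial A} (h1 : Polynomial.aeval a Q ∈ I)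
    (h2 : Un O (Polynomial.aeval a (Polynomial.derivative Q))) : a - algebraMap k F c ∈ I := by
  have haO : a ∈ O := by simpa using add_mem ha.1 (O.algebraMap_mem c)
  let ι : A →+* O := Subalgebra.inclusion hA
  have hv : ∀ (R : Polynomial A) (y : O), (((R.map ι).eval y : O) : F) = Polynomial.aeval (y : F) R :=
    fun R y => by
      rw [Polynomial.eval_map, Polynomial.aeval_def]
      exact Polynomial.hom_eval₂ R ι O.val.toRingHom y
  obtain ⟨κ, hκ⟩ := (Q.map ι).binomExpansion ⟨a, haO⟩ ⟨_, (Van.neg' ha).1⟩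
  have h3 := congrArg Subtype.val hκ
  rw [Polynomial.derivative_map] at h3
  simp only [Subalgebra.coe_add, MulMemClass.coe_mul, SubmonoidClass.coe_pow, hv] at h3
  rw [show a + -(a - algebraMap k F c) = algebraMap k F c by ring] at h3
  have h4 : Un O (Polynomial.aeval a (Polynomial.derivative Q) + κ * -(a - algebraMap k F c)) :=
    un_add_van h2 (Van.mul_left κ.2 (Van.neg' ha))
  have h5 : Polynomial.aeval (algebraMap k F c) Q = Polynomial.aeval a Q +
      (Polynomial.aeval a (Polynomial.derivative Q) + κ * -(a - algebraMap k F c)) *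
        -(a - algebraMap k F c) := by rw [h3]; ring
  have h6 : Polynomial.aeval (algebraMap k F c) Q ∈ I :=
    mem_of_kI hI (hA' (aeval_mem le_rfl (A.algebraMap_mem c) Q))
      (h5 ▸ (hI _ h1).add (Van.mul_left h4.2.1 (Van.neg' ha)))
  have h7 := smul_mem' h4.2.2 (sub_mem h1 h6)
  rwa [h5, sub_add_cancel_left, ← mul_neg, neg_neg, ← mul_assoc, inv_mul_cancel₀ h4.1,
    one_mul] at h7

/-- **spreading out** : coordinates at a closed point of the closure -/
theorem spread [IsAlgClosed k] [CharZero k] [IsLocalRing O] [Algebra.FiniteType k A]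
    (h : IsLoc A O) {c : ℕ} {t : Fin c → F} (ht : Coords O t) {Z : Set F} (hZ : Z.Finite)
    (hZO : ∀ z ∈ Z, z ∈ O) :
    ∃ (ψ : A →ₐ[k] k) (n : ℕ) (s : Fin n → F) (σ : Fin c → Fin n), lo A ψ ≤ O ∧
      (∀ z ∈ Z, z ∈ lo A ψ) ∧ Coords (lo A ψ) s ∧ Function.Injective σ ∧ ∀ l, s (σ l) = t l := by
  classical
  obtain ⟨S, hS⟩ := (Subalgebra.fg_iff_finiteType A).2 inferInstance
  obtain ⟨a, rfl⟩ : ∃ a : S → F, A = Algebra.adjoin k (Set.range a) :=
    ⟨Subtype.val, by rw [Subtype.range_coe_subtype]; exact hS.symm⟩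
  have haA : ∀ j, a j ∈ Algebra.adjoin k (Set.range a) := fun j => Algebra.subset_adjoin ⟨j, rfl⟩
  obtain ⟨T, _, _, x, D, h1, -, h3, h4, h5⟩ := exists_frame h ht
  choose Q hQ hQ' using h3
  choose r hr hr' using fun j => ht.gen _ (hQ j)
  obtain ⟨b, hb, hb', hb''⟩ := h.exists_den (Z := Z ∪ Set.range t ∪
    (Set.range fun p : S × Fin c => r p.1 p.2) ∪ (Set.range fun p : _ × S => D p.1 (a p.2)) ∪
    Set.range fun j => (Polynomial.aeval (a j) (Polynomial.derivative (Q j)))⁻¹)
    (((((hZ.union (Set.finite_range _)).union (Set.finite_range _))).union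
      (Set.finite_range _)).union (Set.finite_range _)) (by
    rintro z ((((hz | ⟨l, rfl⟩) | ⟨p, rfl⟩) | ⟨p, rfl⟩) | ⟨j, rfl⟩)
    exacts [hZO z hz, ht.mem l, hr _ _, h4 _ _ (h.le (haA _)), (hQ' j).2.2])
  obtain ⟨ψ, hψ, hle⟩ := exists_pt h.le hb hb'
  have hL := fun z hz => (mem_lo.2 ⟨⟨b, hb⟩, hψ, hb'' z hz⟩ : z ∈ lo _ ψ)
  have hx : ∀ τ, x τ ∈ Algebra.adjoin k (Set.range a) := fun τ => Algebra.subset_adjoin (h1 τ)
  have hxA : Algebra.adjoin k (Set.range x) ≤ lo _ ψ :=
    (Algebra.adjoin_le (by rintro _ ⟨τ, rfl⟩; exact hx τ)).trans (le_lo ψ)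
  choose v hv using fun τ => exists_sub_van (le_lo ψ (hx τ))
  let s : Fin c ⊕ T → F := Sum.elim t fun τ => x τ - algebraMap k F (v τ)
  have hs : ∀ e, Van (lo _ ψ) (s e) := by
    rintro (l | τ)
    · exact van_of_le hle (hL _ (Or.inl (Or.inl (Or.inl (Or.inr ⟨l, rfl⟩))))) (ht.van l)
    · exact hv τ
  let I : Submodule (lo _ ψ) F := Submodule.span _ (Set.range s)
  have hI : ∀ y ∈ I, Van (lo _ ψ) y := fun y hy => by
    obtain ⟨ρ, rfl⟩ := (Submodule.mem_span_range_iff_exists_fun _).1 hy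
    exact Van.sum _ fun e _ => Van.mul_left (ρ e).2 (hs e)
  have hx' : Algebra.adjoin k (Set.range x) ≤ kI I fun y hy => (hI y hy).1 :=
    Algebra.adjoin_le (by
      rintro _ ⟨τ, rfl⟩
      exact ⟨v τ, Submodule.subset_span ⟨Sum.inr τ, rfl⟩⟩)
  have ha' : Algebra.adjoin k (Set.range a) ≤ kI I fun y hy => (hI y hy).1 :=
    Algebra.adjoin_le (by
      rintro _ ⟨j, rfl⟩
      obtain ⟨w, hw⟩ := exists_sub_van (le_lo ψ (haA j))
      refine ⟨w, sub_mem_of_sep hI hxA hx' hw (Q := Q j) ?_ ⟨(hQ' j).1,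
        aeval_mem hxA (le_lo ψ (haA j)) _, hL _ (Or.inr ⟨j, rfl⟩)⟩⟩
      rw [hr' j]
      exact sum_mem fun l _ => smul_mem' (hL _ (Or.inl (Or.inl (Or.inr ⟨(j, l), rfl⟩))))
        (Submodule.subset_span ⟨Sum.inl l, rfl⟩))
  let ε := (Fintype.equivFin (Fin c ⊕ T)).symm
  refine ⟨ψ, _, s ∘ ε, fun l => ε.symm (Sum.inl l), hle, fun z hz => hL z (by simp [hz]),
    coords_of_fintype hs (fun y hy => ?_) D (fun e y hy => ?_) (fun e e' => ?_) ε,
    ε.symm.injective.comp Sum.inl_injective, fun l => by simp [s]⟩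
  · obtain ⟨b, hb, h6⟩ := hy.1
    have h7 := smul_mem' (un_lo hb).2.2
      (mem_of_kI hI (ha' h6) (Van.mul_left (le_lo ψ b.2) hy))
    rwa [← mul_assoc, inv_mul_cancel₀ (un_lo hb).1, one_mul] at h7
  · refine mem_one'.1 ((isLoc_lo ψ).der_mem (D e) ?_ hy)
    rintro _ ⟨j, rfl⟩
    exact mem_one'.2 (hL _ (Or.inl (Or.inr ⟨(e, j), rfl⟩)))
  · rw [← h5]
    rcases e' with l | τ
    · rfl
    · simp [s]

end Crest.Agent.X262.R139
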